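import Mathlib

/-!
A representation by `2 × 2` matrices of the Clifford algebra of a ternary quadratic form with an
isotropic vector.
-/

namespace Vale.Agent.P287.H124

open Matrix

section Vec

variable {R : Type*} [CommRing R]

omit [CommRing R] in
theorem symm_form {A : Matrix (Fin 3) (Fin 3) R} (hA : A.IsSymm) :
    A = !![A 0 0, A 0 1, A 0 2; A 0 1, A 1 1, A 1 2; A 0 2, A 1 2, A 2 2] := by
  have h1 := hA.apply 0 1
  have h2 := hA.apply 0 2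
  have h3 := hA.apply 1 2
  ext i j
  fin_cases i <;> fin_cases j <;> simp [h1, h2, h3]

theorem gram {A : Matrix (Fin 3) (Fin 3) R} (hA : A.IsSymm) (a b x n : Fin 3 → R) :
    ((A *ᵥ n) ⬝ᵥ x) ^ 2 * (a ⬝ᵥ A *ᵥ b) - ((A *ᵥ n) ⬝ᵥ x) * ((A *ᵥ n) ⬝ᵥ b) * (a ⬝ᵥ A *ᵥ x) -
      ((A *ᵥ n) ⬝ᵥ a) * ((A *ᵥ n) ⬝ᵥ x) * (b ⬝ᵥ A *ᵥ x) +
      ((A *ᵥ n) ⬝ᵥ a) * ((A *ᵥ n) ⬝ᵥ b) * (x ⬝ᵥ A *ᵥ x) =
    -A.det * ((a ⨯₃ x) ⬝ᵥ n) * ((b ⨯₃ x) ⬝ᵥ n) +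
      (n ⬝ᵥ A *ᵥ n) * ((a ⬝ᵥ A *ᵥ b) * (x ⬝ᵥ A *ᵥ x) - (a ⬝ᵥ A *ᵥ x) * (b ⬝ᵥ A *ᵥ x)) := by
  rw [symm_form hA]
  simp only [Matrix.det_fin_three, Matrix.mulVec, dotProduct, Fin.sum_univ_three, cross_apply,
    Matrix.of_apply, Matrix.cons_val', Matrix.cons_val_zero, Matrix.cons_val_one,
    Matrix.cons_val_fin_one, Matrix.cons_val]
  ring

theorem adj_cross {A : Matrix (Fin 3) (Fin 3) R} (hA : A.IsSymm) (y b : Fin 3 → R) :
    (A.adjugate *ᵥ y) ⨯₃ b = A *ᵥ (y ⨯₃ (A *ᵥ b)) := by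
  rw [symm_form hA, Matrix.adjugate_fin_three]
  ext i
  fin_cases i <;>
  · simp only [Matrix.mulVec, dotProduct, Fin.sum_univ_three, cross_apply,
      Matrix.of_apply, Matrix.cons_val', Matrix.cons_val_zero, Matrix.cons_val_one,
      Matrix.cons_val_fin_one, Matrix.cons_val, Fin.zero_eta, Fin.mk_one, Fin.reduceFinMk]
    ring

theorem adj_cross_adj {A : Matrix (Fin 3) (Fin 3) R} (hA : A.IsSymm) (a b : Fin 3 → R) :
    (A.adjugate *ᵥ a) ⨯₃ (A.adjugate *ᵥ b) = A.det • (A *ᵥ (a ⨯₃ b)) := by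
  rw [adj_cross hA, Matrix.mulVec_mulVec, Matrix.mul_adjugate, Matrix.smul_mulVec,
    Matrix.one_mulVec, map_smul, Matrix.mulVec_smul]

end Vec

section Rep

variable {K : Type*} [Field K]

/-- The data: a ternary quadratic form with an isotropic vector `n`, a vector `x` not orthogonal
to `n`, and a square root of minus the determinant. -/
structure Dat (K : Type*) [Field K] where
  A : Matrix (Fin 3) (Fin 3) K
  n : Fin 3 → K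
  x : Fin 3 → K
  sg : K
  symm : A.IsSymm
  iso : n ⬝ᵥ A *ᵥ n = 0
  sq : sg ^ 2 = -A.det
  hsg : sg ≠ 0
  hL : (A *ᵥ n) ⬝ᵥ x ≠ 0

namespace Dat

variable (D : Dat K)

/-- a traceless matrix -/
def tl (a b c : K) : Matrix (Fin 2) (Fin 2) K := !![a, b; c, -a]

/-- the linear form of the tangent line -/
def L : K := (D.A *ᵥ D.n) ⬝ᵥ D.x

theorem L_ne : D.L ≠ 0 := D.hL

/-- the diagonal entry -/
def al (y : Fin 3 → K) : K := D.sg * ((y ⨯₃ D.x) ⬝ᵥ D.n) / D.L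

/-- the lower left entry -/
def be (y : Fin 3 → K) : K := ((D.A *ᵥ D.n) ⬝ᵥ y) / D.L

/-- the upper right entry -/
def ga (y : Fin 3 → K) : K :=
  2 * (y ⬝ᵥ D.A *ᵥ D.x) - D.be y * (D.x ⬝ᵥ D.A *ᵥ D.x)

/-- the matrix of a vector -/
def rho (y : Fin 3 → K) : Matrix (Fin 2) (Fin 2) K := tl (D.al y) (D.ga y) (D.be y)

theorem al_add (y z : Fin 3 → K) : D.al (y + z) = D.al y + D.al z := by
  unfold al
  rw [map_add, LinearMap.add_apply, add_dotProduct, mul_add, add_div]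

theorem be_add (y z : Fin 3 → K) : D.be (y + z) = D.be y + D.be z := by
  unfold be
  rw [dotProduct_add, add_div]

theorem ga_add (y z : Fin 3 → K) : D.ga (y + z) = D.ga y + D.ga z := by
  unfold ga
  rw [be_add, add_dotProduct]
  ring

theorem al_smul (c : K) (y : Fin 3 → K) : D.al (c • y) = c * D.al y := by
  unfold al
  rw [map_smul, LinearMap.smul_apply, smul_dotProduct, smul_eq_mul]
  ring

theorem be_smul (c : K) (y : Fin 3 → K) : D.be (c • y) = c * D.be y := by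
  unfold be
  rw [dotProduct_smul, smul_eq_mul]
  ring

theorem ga_smul (c : K) (y : Fin 3 → K) : D.ga (c • y) = c * D.ga y := by
  unfold ga
  rw [be_smul, smul_dotProduct, smul_eq_mul]
  ring

theorem rho_add (y z : Fin 3 → K) : D.rho (y + z) = D.rho y + D.rho z := by
  unfold rho tl
  rw [al_add, be_add, ga_add]
  ext i j
  fin_cases i <;> fin_cases j <;> simp
  ring

theorem rho_smul (c : K) (y : Fin 3 → K) : D.rho (c • y) = c • D.rho y := by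
  unfold rho tl
  rw [al_smul, be_smul, ga_smul]
  ext i j
  fin_cases i <;> fin_cases j <;> simp

theorem rho_neg (y : Fin 3 → K) : D.rho (-y) = -D.rho y := by
  rw [← neg_one_smul K y, rho_smul, neg_one_smul]

theorem rho_sub (y z : Fin 3 → K) : D.rho (y - z) = D.rho y - D.rho z := by
  rw [sub_eq_add_neg, rho_add, rho_neg, sub_eq_add_neg]

theorem rho_zero : D.rho 0 = 0 := by
  have h := D.rho_smul 0 0
  rwa [zero_smul, zero_smul] at h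

theorem n_dot : D.n ⬝ᵥ D.A *ᵥ D.x = D.L := by
  unfold L
  rw [dotProduct_mulVec, ← mulVec_transpose, D.symm.eq]

/-- the bivector attached to a vector -/
def bv (a : Fin 3 → K) : Matrix (Fin 2) (Fin 2) K := D.sg⁻¹ • D.rho (D.A.adjugate *ᵥ a)

theorem dot_A (a b : Fin 3 → K) : a ⬝ᵥ D.A *ᵥ b = (D.A *ᵥ a) ⬝ᵥ b := by
  rw [dotProduct_mulVec, ← mulVec_transpose, D.symm.eq]

theorem al_adj (a : Fin 3 → K) :
    D.al (D.A.adjugate *ᵥ a) = D.sg * ((a ⨯₃ (D.A *ᵥ D.x)) ⬝ᵥ (D.A *ᵥ D.n)) / D.L := by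
  unfold al
  rw [adj_cross D.symm, ← D.dot_A]

theorem be_adj (a : Fin 3 → K) :
    D.be (D.A.adjugate *ᵥ a) = D.A.det * (D.n ⬝ᵥ a) / D.L := by
  unfold be
  rw [← D.dot_A, Matrix.mulVec_mulVec, Matrix.mul_adjugate, Matrix.smul_mulVec,
    Matrix.one_mulVec, dotProduct_smul, smul_eq_mul]

theorem ga_adj (a : Fin 3 → K) :
    D.ga (D.A.adjugate *ᵥ a) = 2 * (D.A.det * (a ⬝ᵥ D.x)) -
      D.A.det * (D.n ⬝ᵥ a) / D.L * (D.x ⬝ᵥ D.A *ᵥ D.x) := by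
  unfold ga
  rw [be_adj, D.dot_A, Matrix.mulVec_mulVec, Matrix.mul_adjugate, Matrix.smul_mulVec,
    Matrix.one_mulVec, smul_dotProduct, smul_eq_mul]

theorem P00 (y z : Fin 3 → K) : D.al y * D.al z + D.ga y * D.be z =
    y ⬝ᵥ D.A *ᵥ z + D.sg⁻¹ * D.al (D.A.adjugate *ᵥ (y ⨯₃ z)) := by
  have h1 := gram D.symm y z D.x D.n
  rw [D.iso, zero_mul, add_zero, ← D.sq] at h1
  have h2 : (((y ⨯₃ z) ⨯₃ (D.A *ᵥ D.x)) ⬝ᵥ (D.A *ᵥ D.n)) =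
      (y ⬝ᵥ D.A *ᵥ D.x) * ((D.A *ᵥ D.n) ⬝ᵥ z) - (z ⬝ᵥ D.A *ᵥ D.x) * ((D.A *ᵥ D.n) ⬝ᵥ y) := by
    generalize D.A *ᵥ D.x = w
    generalize D.A *ᵥ D.n = l
    simp only [dotProduct, Fin.sum_univ_three, cross_apply, Matrix.cons_val_zero,
      Matrix.cons_val_one, Matrix.cons_val]
    ring
  rw [al_adj, h2]
  unfold al ga be
  have hL := D.L_ne
  have hs := D.hsg
  rw [← inv_mul_cancel_left₀ hs (((D.sg * ((y ⬝ᵥ D.A *ᵥ D.x) * ((D.A *ᵥ D.n) ⬝ᵥ z) -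
    (z ⬝ᵥ D.A *ᵥ D.x) * ((D.A *ᵥ D.n) ⬝ᵥ y))) / D.L))]
  have hLd : D.L = (D.A *ᵥ D.n) ⬝ᵥ D.x := rfl
  rw [← hLd] at h1
  field_simp
  linear_combination -h1

theorem n_l : D.n ⬝ᵥ D.A *ᵥ D.n = 0 := D.iso

theorem P10 (y z : Fin 3 → K) : D.be y * D.al z - D.al y * D.be z =
    D.sg⁻¹ * D.be (D.A.adjugate *ᵥ (y ⨯₃ z)) := by
  have h2 : ((D.A *ᵥ D.n) ⬝ᵥ y) * ((z ⨯₃ D.x) ⬝ᵥ D.n) - ((D.A *ᵥ D.n) ⬝ᵥ z) *
      ((y ⨯₃ D.x) ⬝ᵥ D.n) = -(((D.A *ᵥ D.n) ⬝ᵥ D.x) * (D.n ⬝ᵥ (y ⨯₃ z))) +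
      (D.n ⬝ᵥ D.A *ᵥ D.n) * ((y ⨯₃ z) ⬝ᵥ D.x) := by
    generalize D.A *ᵥ D.n = l
    simp only [dotProduct, Fin.sum_univ_three, cross_apply, Matrix.cons_val_zero,
      Matrix.cons_val_one, Matrix.cons_val]
    ring
  rw [D.iso, zero_mul, add_zero] at h2
  rw [be_adj]
  unfold al be
  have hL := D.L_ne
  have hs := D.hsg
  have hLd : D.L = (D.A *ᵥ D.n) ⬝ᵥ D.x := rfl
  have hd : D.A.det = -D.sg ^ 2 := by rw [D.sq, neg_neg]
  rw [← hLd] at h2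
  rw [hd]
  field_simp
  linear_combination h2

theorem P01 (y z : Fin 3 → K) : D.al y * D.ga z - D.ga y * D.al z =
    D.sg⁻¹ * D.ga (D.A.adjugate *ᵥ (y ⨯₃ z)) := by
  have h2 : ((y ⨯₃ D.x) ⬝ᵥ D.n) * (z ⬝ᵥ D.A *ᵥ D.x) - ((z ⨯₃ D.x) ⬝ᵥ D.n) * (y ⬝ᵥ D.A *ᵥ D.x) =
      (D.n ⬝ᵥ (y ⨯₃ z)) * (D.x ⬝ᵥ D.A *ᵥ D.x) - (D.n ⬝ᵥ D.A *ᵥ D.x) * ((y ⨯₃ z) ⬝ᵥ D.x) := by
    generalize D.A *ᵥ D.x = w
    simp only [dotProduct, Fin.sum_univ_three, cross_apply, Matrix.cons_val_zero,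
      Matrix.cons_val_one, Matrix.cons_val]
    ring
  rw [D.n_dot] at h2
  have h3 : ((D.A *ᵥ D.n) ⬝ᵥ y) * ((z ⨯₃ D.x) ⬝ᵥ D.n) - ((D.A *ᵥ D.n) ⬝ᵥ z) *
      ((y ⨯₃ D.x) ⬝ᵥ D.n) = -(((D.A *ᵥ D.n) ⬝ᵥ D.x) * (D.n ⬝ᵥ (y ⨯₃ z))) +
      (D.n ⬝ᵥ D.A *ᵥ D.n) * ((y ⨯₃ z) ⬝ᵥ D.x) := by
    generalize D.A *ᵥ D.n = l
    simp only [dotProduct, Fin.sum_univ_three, cross_apply, Matrix.cons_val_zero,
      Matrix.cons_val_one, Matrix.cons_val]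
    ring
  rw [D.iso, zero_mul, add_zero] at h3
  rw [ga_adj]
  unfold al ga be
  have hL := D.L_ne
  have hs := D.hsg
  have hLd : D.L = (D.A *ᵥ D.n) ⬝ᵥ D.x := rfl
  have hd : D.A.det = -D.sg ^ 2 := by rw [D.sq, neg_neg]
  rw [← hLd] at h3
  rw [hd]
  field_simp
  linear_combination 2 * D.L * h2 + (D.x ⬝ᵥ D.A *ᵥ D.x) * h3

/-- **(P)** the product of two vectors -/
theorem rho_mul (y z : Fin 3 → K) :
    D.rho y * D.rho z = (y ⬝ᵥ D.A *ᵥ z) • (1 : Matrix (Fin 2) (Fin 2) K) + D.bv (y ⨯₃ z) := by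
  have h1 := D.P00 y z
  have h2 := D.P10 y z
  have h3 := D.P01 y z
  unfold bv rho tl
  ext i j
  fin_cases i <;> fin_cases j
  · simp [Matrix.mul_apply]
    linear_combination h1
  · simp [Matrix.mul_apply]
    linear_combination h3
  · simp [Matrix.mul_apply]
    linear_combination h2
  · have h4 := D.P00 z y
    have h5 : z ⨯₃ y = -(y ⨯₃ z) := (cross_anticomm y z).symm
    rw [h5, Matrix.mulVec_neg, ← neg_one_smul K, D.al_smul] at h4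
    have h6 : z ⬝ᵥ D.A *ᵥ y = y ⬝ᵥ D.A *ᵥ z := by
      rw [D.dot_A, dotProduct_comm]
    rw [h6] at h4
    simp [Matrix.mul_apply]
    linear_combination h4

theorem det_eq : D.A.det = -D.sg ^ 2 := by rw [D.sq, neg_neg]

theorem adj_mulVec_A (z : Fin 3 → K) : D.A.adjugate *ᵥ (D.A *ᵥ z) = -D.sg ^ 2 • z := by
  rw [Matrix.mulVec_mulVec, Matrix.adjugate_mul, Matrix.smul_mulVec, Matrix.one_mulVec, D.det_eq]

theorem bv_add (a b : Fin 3 → K) : D.bv (a + b) = D.bv a + D.bv b := by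
  unfold bv
  rw [Matrix.mulVec_add, rho_add, smul_add]

theorem bv_smul (c : K) (a : Fin 3 → K) : D.bv (c • a) = c • D.bv a := by
  unfold bv
  rw [Matrix.mulVec_smul, rho_smul, smul_comm]

theorem bv_neg (a : Fin 3 → K) : D.bv (-a) = -D.bv a := by
  rw [← neg_one_smul K a, bv_smul, neg_one_smul]

theorem bv_zero' : D.bv 0 = 0 := by
  unfold bv
  rw [Matrix.mulVec_zero, rho_zero, smul_zero]

theorem sg_smul_bv (a : Fin 3 → K) : D.sg • D.bv a = D.rho (D.A.adjugate *ᵥ a) := by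
  unfold bv
  rw [smul_smul, mul_inv_cancel₀ D.hsg, one_smul]

theorem bv_A (z : Fin 3 → K) : D.bv (D.A *ᵥ z) = -(D.sg • D.rho z) := by
  unfold bv
  rw [adj_mulVec_A, rho_smul, smul_smul, ← neg_smul]
  congr 1
  have := D.hsg
  field_simp

theorem rho_mul_bv (y a : Fin 3 → K) :
    D.rho y * D.bv a = -(D.sg * (y ⬝ᵥ a)) • (1 : Matrix (Fin 2) (Fin 2) K) +
      D.rho (a ⨯₃ (D.A *ᵥ y)) := by
  have hs := D.hsg
  have h1 : D.rho y * D.bv a = D.sg⁻¹ • (D.rho y * D.rho (D.A.adjugate *ᵥ a)) := by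
    unfold bv
    rw [Matrix.mul_smul]
  have h2 : y ⬝ᵥ D.A *ᵥ (D.A.adjugate *ᵥ a) = -D.sg ^ 2 * (y ⬝ᵥ a) := by
    rw [Matrix.mulVec_mulVec, Matrix.mul_adjugate, Matrix.smul_mulVec, Matrix.one_mulVec,
      dotProduct_smul, D.det_eq, smul_eq_mul]
  have h3 : y ⨯₃ (D.A.adjugate *ᵥ a) = -(D.A *ᵥ (a ⨯₃ (D.A *ᵥ y))) := by
    rw [← adj_cross D.symm, cross_anticomm]
  rw [h1, rho_mul, h2, h3, bv_neg, bv_A, neg_neg, smul_add, smul_smul, smul_smul,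
    inv_mul_cancel₀ hs, one_smul]
  congr 2
  field_simp

theorem bv_mul_bv (b a : Fin 3 → K) :
    D.bv b * D.bv a = -(b ⬝ᵥ D.A.adjugate *ᵥ a) • (1 : Matrix (Fin 2) (Fin 2) K) -
      D.bv (D.A *ᵥ (b ⨯₃ a)) := by
  have hs := D.hsg
  have h1 : D.bv b * D.bv a = (D.sg⁻¹ * D.sg⁻¹) •
      (D.rho (D.A.adjugate *ᵥ b) * D.rho (D.A.adjugate *ᵥ a)) := by
    unfold bv
    rw [Matrix.mul_smul, Matrix.smul_mul, smul_smul]
  have h2 : (D.A.adjugate *ᵥ b) ⬝ᵥ D.A *ᵥ (D.A.adjugate *ᵥ a) =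
      -D.sg ^ 2 * (b ⬝ᵥ D.A.adjugate *ᵥ a) := by
    rw [D.dot_A, Matrix.mulVec_mulVec, Matrix.mul_adjugate, Matrix.smul_mulVec,
      Matrix.one_mulVec, smul_dotProduct, D.det_eq, smul_eq_mul]
  rw [h1, rho_mul, h2, adj_cross_adj D.symm, bv_smul, D.det_eq, smul_add, smul_smul, smul_smul,
    sub_eq_add_neg, ← neg_one_smul K (D.bv _)]
  congr 2 <;> field_simp

theorem rho_x_sq : D.rho D.x * D.rho D.x =
    (D.x ⬝ᵥ D.A *ᵥ D.x) • (1 : Matrix (Fin 2) (Fin 2) K) := by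
  rw [rho_mul, cross_self, D.bv_zero', add_zero]

theorem al_x : D.al D.x = 0 := by
  unfold al
  rw [cross_self, zero_dotProduct, mul_zero, zero_div]

theorem be_x : D.be D.x = 1 := by
  unfold be
  exact div_self D.hL

/-- the first basis vector -/
def u : Fin 2 → K := ![1, 0]

theorem mulVec_u (M : Matrix (Fin 2) (Fin 2) K) : M *ᵥ (u : Fin 2 → K) = ![M 0 0, M 1 0] := by
  ext i
  fin_cases i <;> simp [u, Matrix.mulVec, dotProduct, Fin.sum_univ_two]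

theorem rho_u (y : Fin 3 → K) : D.rho y *ᵥ u = ![D.al y, D.be y] := by
  rw [mulVec_u]
  simp [rho, tl]

theorem rho_x_u : D.rho D.x *ᵥ u = ![0, 1] := by
  rw [rho_u, al_x, be_x]

/-- `Ω` -/
def om (a : Fin 3 → K) (c : K) : Fin 2 → K :=
  D.sg⁻¹ • ((c • (1 : Matrix (Fin 2) (Fin 2) K) - D.bv a) *ᵥ u)

theorem om_eq (a : Fin 3 → K) (c : K) : D.om a c =
    ![D.sg⁻¹ * (c - ((a ⨯₃ (D.A *ᵥ D.x)) ⬝ᵥ (D.A *ᵥ D.n)) / D.L), (D.n ⬝ᵥ a) / D.L] := by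
  have hs := D.hsg
  have hL := D.L_ne
  unfold om bv
  rw [Matrix.sub_mulVec, Matrix.smul_mulVec, Matrix.one_mulVec, Matrix.smul_mulVec, rho_u, al_adj,
    be_adj, D.det_eq]
  ext i
  fin_cases i
  · simp [u]
    field_simp
    simp
  · simp [u]
    field_simp

theorem om_eq_zero_iff (a : Fin 3 → K) (c : K) : D.om a c = 0 ↔
    D.n ⬝ᵥ a = 0 ∧ a ⨯₃ (D.A *ᵥ D.n) = -(c • D.n) := by
  have hs := D.hsg
  have hL := D.L_ne
  have h4 : (a ⨯₃ (D.A *ᵥ D.x)) ⬝ᵥ (D.A *ᵥ D.n) =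
      -((a ⨯₃ (D.A *ᵥ D.n)) ⬝ᵥ (D.A *ᵥ D.x)) := by
    generalize D.A *ᵥ D.x = w
    generalize D.A *ᵥ D.n = l
    simp only [dotProduct, Fin.sum_univ_three, cross_apply, Matrix.cons_val_zero,
      Matrix.cons_val_one, Matrix.cons_val]
    ring
  rw [om_eq]
  constructor
  · intro h
    have h1 := congrFun h 0
    have h2 := congrFun h 1
    simp only [Matrix.cons_val_zero, Matrix.cons_val_one, Pi.zero_apply, mul_eq_zero,
      inv_eq_zero, hs, false_or, div_eq_zero_iff, hL, or_false] at h1 h2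
    refine ⟨h2, ?_⟩
    have h3 : c * D.L = (a ⨯₃ (D.A *ᵥ D.x)) ⬝ᵥ (D.A *ᵥ D.n) := by
      field_simp at h1
      linear_combination h1
    rw [h4] at h3
    have h5 : (D.n ⬝ᵥ D.A *ᵥ D.x) • (a ⨯₃ (D.A *ᵥ D.n)) =
        ((a ⨯₃ (D.A *ᵥ D.n)) ⬝ᵥ (D.A *ᵥ D.x)) • D.n +
        (D.n ⬝ᵥ a) • ((D.A *ᵥ D.x) ⨯₃ (D.A *ᵥ D.n)) -
        (D.n ⬝ᵥ D.A *ᵥ D.n) • ((D.A *ᵥ D.x) ⨯₃ a) := by
      generalize D.A *ᵥ D.x = w
      generalize D.A *ᵥ D.n = l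
      ext i
      fin_cases i <;>
      · simp only [dotProduct, Fin.sum_univ_three, cross_apply, Matrix.cons_val_zero,
          Matrix.cons_val_one, Matrix.cons_val, Pi.smul_apply, Pi.add_apply, Pi.sub_apply,
          smul_eq_mul, Fin.zero_eta, Fin.mk_one, Fin.reduceFinMk]
        ring
    rw [D.n_dot, h2, D.iso, zero_smul, zero_smul, add_zero, sub_zero] at h5
    have h6 : (a ⨯₃ (D.A *ᵥ D.n)) ⬝ᵥ (D.A *ᵥ D.x) = -(c * D.L) := by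
      rw [h3, neg_neg]
    rw [h6] at h5
    have h7 : D.L • (a ⨯₃ (D.A *ᵥ D.n)) = D.L • (-(c • D.n)) := by
      rw [h5, smul_neg, smul_smul, ← neg_smul, mul_comm]
    exact smul_right_injective _ hL h7
  · rintro ⟨h1, h2⟩
    have h3 : (a ⨯₃ (D.A *ᵥ D.x)) ⬝ᵥ (D.A *ᵥ D.n) = c * D.L := by
      rw [h4, h2, neg_dotProduct, smul_dotProduct, D.n_dot, smul_eq_mul, neg_neg]
    rw [h1, h3, mul_div_assoc, div_self hL, mul_one, sub_self, mul_zero, zero_div]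
    ext i
    fin_cases i <;> rfl

theorem om_add (a a' : Fin 3 → K) (c c' : K) : D.om (a + a') (c + c') = D.om a c + D.om a' c' := by
  unfold om
  rw [bv_add, add_smul, add_sub_add_comm, Matrix.add_mulVec, smul_add]

theorem om_smul (b : K) (a : Fin 3 → K) (c : K) : D.om (b • a) (b * c) = b • D.om a c := by
  unfold om
  rw [bv_smul, mul_smul, ← smul_sub, Matrix.smul_mulVec, smul_comm]

/-- left multiplication by a bivector -/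
theorem bv_om (b a : Fin 3 → K) (c : K) : D.bv b *ᵥ D.om a c =
    D.om (-(c • b + D.A *ᵥ (b ⨯₃ a))) (b ⬝ᵥ D.A.adjugate *ᵥ a) := by
  unfold om
  rw [Matrix.mulVec_smul, Matrix.mulVec_mulVec, Matrix.mul_sub, Matrix.mul_smul, Matrix.mul_one,
    bv_mul_bv, bv_neg, bv_add, bv_smul]
  congr 2
  rw [neg_smul]
  abel

end Dat

theorem y_cross {R : Type*} [CommRing R] {A : Matrix (Fin 3) (Fin 3) R} (hA : A.IsSymm)
    (y b : Fin 3 → R) : (y ⬝ᵥ A.adjugate *ᵥ y) • b =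
      (y ⬝ᵥ b) • (A.adjugate *ᵥ y) - y ⨯₃ (A *ᵥ (y ⨯₃ (A *ᵥ b))) := by
  rw [← adj_cross hA, cross_cross_eq_smul_sub_smul', dotProduct_comm (A.adjugate *ᵥ y) y,
    sub_sub_cancel]

end Rep

end Vale.Agent.P287.H124
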