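import Vale.Agent.P287.H124.Cliff

/-!
The lattices `Λ_D` and `Λ_X`.
-/

set_option linter.unusedSectionVars false

namespace Vale.Agent.P287.H124

open Matrix

/-- a vector over the ring as a vector over the field -/
def up {B : Type*} (κ : Type*) [CommRing B] [Field κ] [Algebra B κ] (y : Fin 3 → B) : Fin 3 → κ :=
  fun i => algebraMap B κ (y i)

section Up

variable {B κ : Type*} [CommRing B] [Field κ] [Algebra B κ]

theorem up_add (y z : Fin 3 → B) : up κ (y + z) = up κ y + up κ z := by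
  ext i; simp [up]

theorem up_smul (b : B) (y : Fin 3 → B) : up κ (b • y) = algebraMap B κ b • up κ y := by
  ext i; simp [up]

theorem up_neg (y : Fin 3 → B) : up κ (-y) = -up κ y := by
  ext i; simp [up]

theorem up_sub (y z : Fin 3 → B) : up κ (y - z) = up κ y - up κ z := by
  ext i; simp [up]

theorem up_mulVec (A : Matrix (Fin 3) (Fin 3) B) (y : Fin 3 → B) :
    up κ (A *ᵥ y) = (A.map (algebraMap B κ)) *ᵥ up κ y := by
  ext i
  simp [up, Matrix.mulVec, dotProduct]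

theorem up_dot (y z : Fin 3 → B) : up κ y ⬝ᵥ up κ z = algebraMap B κ (y ⬝ᵥ z) := by
  simp [up, dotProduct]

theorem up_cross (y z : Fin 3 → B) : up κ (y ⨯₃ z) = up κ y ⨯₃ up κ z := by
  ext i
  fin_cases i <;> simp [up, cross_apply]

end Up

/-- The data over the ring `B`. -/
structure BDat (B κ : Type*) [CommRing B] [Field κ] [Algebra B κ] where
  A : Matrix (Fin 3) (Fin 3) B
  n : Fin 3 → B
  x : Fin 3 → B
  sg : κ
  symm : A.IsSymm
  iso : n ⬝ᵥ A *ᵥ n = 0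
  sq : sg ^ 2 = algebraMap B κ (-A.det)
  hdet : A.det ≠ 0
  hL : (A *ᵥ n) ⬝ᵥ x ≠ 0

namespace BDat

variable {B κ : Type*} [CommRing B] [Field κ] [Algebra B κ] [FaithfulSMul B κ]

variable (D : BDat B κ)

theorem inj {b : B} (h : algebraMap B κ b = 0) : b = 0 :=
  FaithfulSMul.algebraMap_injective B κ (by rw [h, map_zero])

/-- The data over the field. -/
def toDat : Dat κ where
  A := D.A.map (algebraMap B κ)
  n := up κ D.n
  x := up κ D.x
  sg := D.sg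
  symm := by
    rw [Matrix.IsSymm, ← Matrix.transpose_map, D.symm.eq]
  iso := by
    rw [← up_mulVec, up_dot, D.iso, map_zero]
  sq := by
    rw [D.sq, map_neg]
    congr 1
    exact RingHom.map_det _ _
  hsg := by
    intro h
    have h1 := D.sq
    rw [h, zero_pow two_ne_zero] at h1
    have h2 := inj h1.symm
    exact D.hdet (neg_eq_zero.1 h2)
  hL := by
    rw [← up_mulVec, up_dot]
    intro h
    exact D.hL (inj h)

theorem toDat_A : D.toDat.A = D.A.map (algebraMap B κ) := rfl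

theorem toDat_adj : D.toDat.A.adjugate = D.A.adjugate.map (algebraMap B κ) :=
  (RingHom.map_adjugate (algebraMap B κ) D.A).symm

theorem A_up (y : Fin 3 → B) : D.toDat.A *ᵥ up κ y = up κ (D.A *ᵥ y) := by
  rw [up_mulVec]; rfl

theorem adj_up (y : Fin 3 → B) : D.toDat.A.adjugate *ᵥ up κ y = up κ (D.A.adjugate *ᵥ y) := by
  rw [toDat_adj, up_mulVec]

/-- the matrix of a vector -/
noncomputable def rho (y : Fin 3 → B) : Matrix (Fin 2) (Fin 2) κ := D.toDat.rho (up κ y)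

/-- the matrix of a bivector -/
noncomputable def bv (a : Fin 3 → B) : Matrix (Fin 2) (Fin 2) κ := D.toDat.bv (up κ a)

theorem rho_add (y z : Fin 3 → B) : D.rho (y + z) = D.rho y + D.rho z := by
  unfold rho; rw [up_add, Dat.rho_add]

theorem rho_smul (b : B) (y : Fin 3 → B) : D.rho (b • y) = algebraMap B κ b • D.rho y := by
  unfold rho; rw [up_smul, Dat.rho_smul]

theorem rho_neg (y : Fin 3 → B) : D.rho (-y) = -D.rho y := by
  unfold rho; rw [up_neg, Dat.rho_neg]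

theorem bv_add (y z : Fin 3 → B) : D.bv (y + z) = D.bv y + D.bv z := by
  unfold bv; rw [up_add, Dat.bv_add]

theorem bv_smul (b : B) (y : Fin 3 → B) : D.bv (b • y) = algebraMap B κ b • D.bv y := by
  unfold bv; rw [up_smul, Dat.bv_smul]

theorem bv_neg (y : Fin 3 → B) : D.bv (-y) = -D.bv y := by
  unfold bv; rw [up_neg, Dat.bv_neg]

theorem rho_mul (y z : Fin 3 → B) : D.rho y * D.rho z =
    algebraMap B κ (y ⬝ᵥ D.A *ᵥ z) • (1 : Matrix (Fin 2) (Fin 2) κ) + D.bv (y ⨯₃ z) := by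
  unfold rho bv
  rw [Dat.rho_mul, A_up, up_dot, up_cross]

theorem rho_mul_bv (y a : Fin 3 → B) : D.rho y * D.bv a =
    -(D.sg * algebraMap B κ (y ⬝ᵥ a)) • (1 : Matrix (Fin 2) (Fin 2) κ) +
      D.rho (a ⨯₃ (D.A *ᵥ y)) := by
  unfold rho bv
  rw [Dat.rho_mul_bv, A_up, up_dot, up_cross]
  rfl

theorem bv_mul_bv (b a : Fin 3 → B) : D.bv b * D.bv a =
    -algebraMap B κ (b ⬝ᵥ D.A.adjugate *ᵥ a) • (1 : Matrix (Fin 2) (Fin 2) κ) -
      D.bv (D.A *ᵥ (b ⨯₃ a)) := by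
  unfold bv
  rw [Dat.bv_mul_bv, adj_up, up_dot, ← up_cross, A_up]

theorem sg_ne : D.sg ≠ 0 := D.toDat.hsg

theorem sg_rho (z : Fin 3 → B) : D.sg • D.rho z = D.bv (-(D.A *ᵥ z)) := by
  unfold rho bv
  rw [up_neg, Dat.bv_neg, ← A_up, Dat.bv_A, neg_neg]
  rfl

theorem sg_bv (a : Fin 3 → B) : D.sg • D.bv a = D.rho (D.A.adjugate *ᵥ a) := by
  unfold rho bv
  rw [← adj_up, ← Dat.sg_smul_bv]
  rfl

/-- the generic element of the algebra -/
noncomputable def el (a : Fin 3 → B) (c : B) (y : Fin 3 → B) (d : B) : Matrix (Fin 2) (Fin 2) κ :=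
  algebraMap B κ c • (1 : Matrix (Fin 2) (Fin 2) κ) + D.bv a + D.rho y +
    (algebraMap B κ d * D.sg) • (1 : Matrix (Fin 2) (Fin 2) κ)

theorem rho_el (z a : Fin 3 → B) (c : B) (y : Fin 3 → B) (d : B) : D.rho z * D.el a c y d =
    D.el (z ⨯₃ y - d • (D.A *ᵥ z)) (z ⬝ᵥ D.A *ᵥ y) (c • z + a ⨯₃ (D.A *ᵥ z)) (-(z ⬝ᵥ a)) := by
  unfold el
  have h1 := D.sg_rho z
  rw [Matrix.mul_add, Matrix.mul_add, Matrix.mul_add, Matrix.mul_smul, Matrix.mul_one, rho_mul_bv,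
    rho_mul, Matrix.mul_smul, Matrix.mul_one, mul_smul, h1, rho_add, rho_smul, sub_eq_add_neg,
    bv_add, bv_neg, bv_neg, bv_smul, map_neg]
  rw [neg_mul, mul_comm D.sg, smul_neg]
  abel

/-- `Λ_D` as the image of a linear map -/
noncomputable def thD : ((Fin 3 → B) × B) × ((Fin 3 → B) × B) →ₗ[B] (Fin 2 → κ) where
  toFun p := D.el p.1.1 p.1.2 p.2.1 p.2.2 *ᵥ Dat.u
  map_add' p q := by
    rw [← Matrix.add_mulVec]
    congr 1
    unfold el
    simp only [Prod.fst_add, Prod.snd_add, bv_add, rho_add, map_add, add_smul, add_mul]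
    abel
  map_smul' b p := by
    rw [RingHom.id_apply, ← algebraMap_smul κ b (D.el _ _ _ _ *ᵥ Dat.u), ← Matrix.smul_mulVec]
    congr 1
    unfold el
    simp only [Prod.smul_fst, Prod.smul_snd, bv_smul, rho_smul, smul_eq_mul, map_mul, mul_smul,
      smul_add]

/-- `Λ_D` -/
noncomputable def LamD : Submodule B (Fin 2 → κ) := LinearMap.range D.thD

theorem mem_LamD {v : Fin 2 → κ} : v ∈ D.LamD ↔
    ∃ a c y d, v = D.el a c y d *ᵥ Dat.u := by
  constructor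
  · rintro ⟨p, rfl⟩
    exact ⟨p.1.1, p.1.2, p.2.1, p.2.2, rfl⟩
  · rintro ⟨a, c, y, d, rfl⟩
    exact ⟨((a, c), (y, d)), rfl⟩

theorem rho_mem {v : Fin 2 → κ} (hv : v ∈ D.LamD) (z : Fin 3 → B) : D.rho z *ᵥ v ∈ D.LamD := by
  obtain ⟨a, c, y, d, rfl⟩ := D.mem_LamD.1 hv
  rw [Matrix.mulVec_mulVec, rho_el]
  exact D.mem_LamD.2 ⟨_, _, _, _, rfl⟩

/-- `Ω` -/
noncomputable def om : ((Fin 3 → B) × B) →ₗ[B] (Fin 2 → κ) where
  toFun p := D.toDat.om (up κ p.1) (algebraMap B κ p.2)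
  map_add' p q := by
    rw [← Dat.om_add, Prod.fst_add, Prod.snd_add, up_add, map_add]
  map_smul' b p := by
    rw [RingHom.id_apply, ← algebraMap_smul κ b (D.toDat.om _ _), ← Dat.om_smul, Prod.smul_fst,
      Prod.smul_snd, up_smul, smul_eq_mul, map_mul]

theorem om_apply (a : Fin 3 → B) (c : B) : D.om (a, c) =
    D.sg⁻¹ • ((algebraMap B κ c • (1 : Matrix (Fin 2) (Fin 2) κ) - D.bv a) *ᵥ Dat.u) := rfl

theorem sg_om (a : Fin 3 → B) (c : B) : D.sg • D.om (a, c) =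
    (algebraMap B κ c • (1 : Matrix (Fin 2) (Fin 2) κ) - D.bv a) *ᵥ Dat.u := by
  rw [om_apply, smul_smul, mul_inv_cancel₀ D.sg_ne, one_smul]

theorem bv_om (b a : Fin 3 → B) (c : B) : D.bv b *ᵥ D.om (a, c) =
    D.om (-(c • b + D.A *ᵥ (b ⨯₃ a)), b ⬝ᵥ D.A.adjugate *ᵥ a) := by
  have h := D.toDat.bv_om (up κ b) (up κ a) (algebraMap B κ c)
  rw [← up_cross, A_up, ← up_smul, ← up_add, ← up_neg, adj_up, up_dot] at h
  exact h

theorem om_eq_zero_iff (a : Fin 3 → B) (c : B) : D.om (a, c) = 0 ↔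
    D.n ⬝ᵥ a = 0 ∧ a ⨯₃ (D.A *ᵥ D.n) = -(c • D.n) := by
  have h := D.toDat.om_eq_zero_iff (up κ a) (algebraMap B κ c)
  have h1 : D.toDat.n = up κ D.n := rfl
  rw [h1, A_up, up_dot, ← up_cross, ← up_smul, ← up_neg] at h
  have h2 : D.om (a, c) = D.toDat.om (up κ a) (algebraMap B κ c) := rfl
  rw [h2, h]
  constructor
  · rintro ⟨h3, h4⟩
    refine ⟨inj h3, ?_⟩
    ext i
    exact FaithfulSMul.algebraMap_injective B κ (congrFun h4 i)
  · rintro ⟨h3, h4⟩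
    rw [h3, h4, map_zero]
    exact ⟨rfl, rfl⟩

/-- the submodule `X` -/
def XG (G : B) : Submodule B ((Fin 3 → B) × B) where
  carrier := {p | D.A.det ∣ G * p.2 ∧ ∀ i, D.A.det ∣ G * (D.A.adjugate *ᵥ p.1) i}
  add_mem' := by
    rintro p q ⟨h1, h2⟩ ⟨h3, h4⟩
    refine ⟨?_, fun i => ?_⟩
    · rw [Prod.snd_add, mul_add]; exact dvd_add h1 h3
    · rw [Prod.fst_add, Matrix.mulVec_add, Pi.add_apply, mul_add]; exact dvd_add (h2 i) (h4 i)
  zero_mem' := by
    refine ⟨by simp, fun i => by simp⟩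
  smul_mem' := by
    rintro b p ⟨h1, h2⟩
    refine ⟨?_, fun i => ?_⟩
    · rw [Prod.smul_snd, smul_eq_mul, mul_left_comm]; exact h1.mul_left b
    · rw [Prod.smul_fst, Matrix.mulVec_smul, Pi.smul_apply, smul_eq_mul, mul_left_comm]
      exact (h2 i).mul_left b

theorem mem_XG {G : B} {a : Fin 3 → B} {c : B} : (a, c) ∈ D.XG G ↔
    D.A.det ∣ G * c ∧ ∀ i, D.A.det ∣ G * (D.A.adjugate *ᵥ a) i := Iff.rfl

/-- `X` is stable under left multiplication by bivectors -/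
theorem stab_XG {G : B} (b a : Fin 3 → B) (c : B) (h : (a, c) ∈ D.XG G) :
    (-(c • b + D.A *ᵥ (b ⨯₃ a)), b ⬝ᵥ D.A.adjugate *ᵥ a) ∈ D.XG G := by
  obtain ⟨h1, h2⟩ := h
  refine ⟨?_, fun i => ?_⟩
  · change D.A.det ∣ G * (b ⬝ᵥ D.A.adjugate *ᵥ a)
    rw [dotProduct, Finset.mul_sum]
    refine Finset.dvd_sum fun i _ => ?_
    rw [mul_left_comm]
    exact (h2 i).mul_left _
  · change D.A.det ∣ G * (D.A.adjugate *ᵥ (-(c • b + D.A *ᵥ (b ⨯₃ a)))) i
    rw [Matrix.mulVec_neg, Matrix.mulVec_add, Matrix.mulVec_smul, Matrix.mulVec_mulVec,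
      Matrix.adjugate_mul, Matrix.smul_mulVec, Matrix.one_mulVec]
    simp only [Pi.neg_apply, Pi.add_apply, Pi.smul_apply, smul_eq_mul, mul_neg, mul_add]
    rw [dvd_neg]
    refine dvd_add ?_ ?_
    · rw [← mul_assoc]
      exact (h1 : D.A.det ∣ G * c).mul_right _
    · rw [mul_left_comm]
      exact dvd_mul_right _ _

/-- `Λ_X` -/
noncomputable def LamX (G : B) : Submodule B (Fin 2 → κ) := (D.XG G).map D.om

theorem bv_mem_LamX {G : B} {v : Fin 2 → κ} (hv : v ∈ D.LamX G) (b : Fin 3 → B) :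
    D.bv b *ᵥ v ∈ D.LamX G := by
  obtain ⟨⟨a, c⟩, h, rfl⟩ := hv
  rw [bv_om]
  exact ⟨_, D.stab_XG b a c h, rfl⟩

theorem rho_rho_mem_LamX {G : B} {v : Fin 2 → κ} (hv : v ∈ D.LamX G) (y z : Fin 3 → B) :
    D.rho y *ᵥ (D.rho z *ᵥ v) ∈ D.LamX G := by
  rw [Matrix.mulVec_mulVec, rho_mul, Matrix.add_mulVec, Matrix.smul_mulVec, Matrix.one_mulVec,
    algebraMap_smul]
  exact add_mem (Submodule.smul_mem _ _ hv) (D.bv_mem_LamX hv _)

/-- The hypotheses on `G`, `s`, `c₀`. -/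
structure Gd (G s c0 : B) : Prop where
  hs : algebraMap B κ c0 * D.sg = algebraMap B κ s
  h1 : D.A.det ∣ G * s
  h2 : ∀ c, D.A.det ∣ G * c → D.A.det ∣ s * c
  h3 : IsCoprime c0 D.A.det
  h4 : ∃ (w : B) (r : Fin 3 → B), D.A.det ∣ w * (r ⬝ᵥ D.A.adjugate *ᵥ r) - 1

variable {D}

theorem smul_eq_map (b : B) (v : Fin 2 → κ) : b • v = algebraMap B κ b • v :=
  (algebraMap_smul κ b v).symm

theorem Gd.om_c0 {G s c0 : B} (h : D.Gd G s c0) (a : Fin 3 → B) (c : B) (y : Fin 3 → B) (d : B) :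
    D.om (-(s • a) + c0 • (D.A *ᵥ y), s * c - c0 * d * D.A.det) =
      c0 • (D.el a c y d *ᵥ Dat.u) := by
  have hs := D.sg_ne
  apply smul_right_injective _ hs
  change D.sg • D.om _ = D.sg • _
  rw [sg_om, smul_eq_map c0, smul_smul, ← Matrix.smul_mulVec (D.sg * algebraMap B κ c0)]
  congr 1
  have h1 : D.bv (D.A *ᵥ y) = -(D.sg • D.rho y) := by
    rw [sg_rho, bv_neg, neg_neg]
  have h2 : algebraMap B κ D.A.det = -(D.sg * D.sg) := by
    rw [← pow_two, D.sq, map_neg, neg_neg]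
  unfold el
  rw [bv_add, bv_neg, bv_smul, bv_smul, h1]
  simp only [smul_add, smul_smul, smul_neg, map_sub, map_mul]
  rw [h2, ← h.hs]
  rw [show algebraMap B κ c0 * D.sg * algebraMap B κ c -
      algebraMap B κ c0 * algebraMap B κ d * -(D.sg * D.sg) =
      D.sg * algebraMap B κ c0 * algebraMap B κ c +
      D.sg * algebraMap B κ c0 * (algebraMap B κ d * D.sg) by ring, add_smul,
      mul_comm (algebraMap B κ c0) D.sg]
  abel

theorem Gd.c0_mem {G s c0 : B} (h : D.Gd G s c0) {v : Fin 2 → κ} (hv : v ∈ D.LamD) :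
    c0 • v ∈ D.LamX G := by
  obtain ⟨a, c, y, d, rfl⟩ := D.mem_LamD.1 hv
  rw [← h.om_c0]
  refine ⟨_, ⟨?_, fun i => ?_⟩, rfl⟩
  · change D.A.det ∣ G * (s * c - c0 * d * D.A.det)
    rw [mul_sub, ← mul_assoc, ← mul_assoc]
    exact dvd_sub (h.h1.mul_right _) (dvd_mul_left _ _)
  · change D.A.det ∣ G * (D.A.adjugate *ᵥ (-(s • a) + c0 • (D.A *ᵥ y))) i
    rw [Matrix.mulVec_add, Matrix.mulVec_neg, Matrix.mulVec_smul, Matrix.mulVec_smul,
      Matrix.mulVec_mulVec, Matrix.adjugate_mul, Matrix.smul_mulVec, Matrix.one_mulVec]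
    simp only [Pi.neg_apply, Pi.add_apply, Pi.smul_apply, smul_eq_mul, mul_neg, mul_add]
    refine dvd_add ?_ ?_
    · rw [dvd_neg, ← mul_assoc]
      exact h.h1.mul_right _
    · rw [mul_left_comm c0, mul_left_comm G]
      exact dvd_mul_right _ _

/-- `f v` lies in `Λ_D` -/
theorem det_smul_om_mem (a : Fin 3 → B) (c : B) : D.A.det • D.om (a, c) ∈ D.LamD := by
  have h2 : algebraMap B κ D.A.det = -(D.sg * D.sg) := by
    rw [← pow_two, D.sq, map_neg, neg_neg]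
  rw [smul_eq_map, h2, neg_smul, mul_smul, sg_om, ← Matrix.smul_mulVec, smul_sub, sg_bv]
  refine D.mem_LamD.2 ⟨0, 0, D.A.adjugate *ᵥ a, -c, ?_⟩
  rw [← Matrix.neg_mulVec]
  congr 1
  have h3 : D.bv 0 = 0 := by
    have := D.bv_smul 0 0
    rwa [zero_smul, map_zero, zero_smul] at this
  unfold el
  rw [h3, map_zero, zero_smul, zero_add, zero_add, map_neg, neg_mul, neg_smul, smul_smul,
    mul_comm D.sg]
  abel

theorem Gd.om_mem [IsDomain B] {G s c0 : B} (h : D.Gd G s c0) {a : Fin 3 → B} {c : B}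
    (hx : (a, c) ∈ D.XG G) : D.om (a, c) ∈ D.LamD := by
  obtain ⟨hc, ha⟩ := hx
  obtain ⟨c1, hc1⟩ := h.h2 c hc
  have hb : ∀ i, ∃ b, s * (D.A.adjugate *ᵥ a) i = D.A.det * b := fun i => h.h2 _ (ha i)
  choose b hb using hb
  obtain ⟨w, r, hwr⟩ := h.h4
  have hs := D.sg_ne
  have h2 : algebraMap B κ D.A.det = -(D.sg * D.sg) := by
    rw [← pow_two, D.sq, map_neg, neg_neg]
  have hb' : s • (D.A.adjugate *ᵥ a) = D.A.det • b := by
    ext i; exact hb i
  -- `A b = s a`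
  have hAb : D.A *ᵥ b = s • a := by
    have h5 : D.A *ᵥ (s • (D.A.adjugate *ᵥ a)) = D.A *ᵥ (D.A.det • b) := by rw [hb']
    rw [Matrix.mulVec_smul, Matrix.mulVec_smul, Matrix.mulVec_mulVec, Matrix.mul_adjugate,
      Matrix.smul_mulVec, Matrix.one_mulVec] at h5
    ext i
    have h6 := congrFun h5 i
    simp only [Pi.smul_apply, smul_eq_mul] at h6 ⊢
    apply mul_left_cancel₀ D.hdet
    linear_combination -h6
  have hy := y_cross D.symm r b
  rw [hAb, map_smul, Matrix.mulVec_smul, map_smul] at hy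
  -- `c₀ σ⁻¹ c = - c₁`
  have e1 : algebraMap B κ c0 * (D.sg⁻¹ * algebraMap B κ c) = -algebraMap B κ c1 := by
    have h5 : algebraMap B κ (s * c) = algebraMap B κ (D.A.det * c1) := by rw [hc1]
    rw [map_mul, map_mul, h2, ← h.hs] at h5
    field_simp
    apply mul_left_cancel₀ hs
    linear_combination h5
  -- `c₀ σ⁻¹ bv a = -σ⁻¹ rho b`
  have e2 : algebraMap B κ c0 • (D.sg⁻¹ • D.bv a) = -(D.sg⁻¹ • D.rho b) := by
    have h5 : D.rho (s • (D.A.adjugate *ᵥ a)) = D.rho (D.A.det • b) := by rw [hb']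
    rw [rho_smul, rho_smul, h2, ← h.hs, ← sg_bv, neg_smul, smul_smul] at h5
    calc algebraMap B κ c0 • (D.sg⁻¹ • D.bv a) =
        (D.sg⁻¹ * D.sg⁻¹ * D.sg⁻¹) • ((algebraMap B κ c0 * D.sg * D.sg) • D.bv a) := by
          rw [smul_smul, smul_smul]
          congr 1
          field_simp
      _ = -(D.sg⁻¹ • D.rho b) := by
          rw [h5, smul_neg, smul_smul]
          congr 2
          field_simp
  have key : c0 * (r ⬝ᵥ D.A.adjugate *ᵥ r) ∈ {t : B | t • D.om (a, c) ∈ D.LamD} := by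
    change (c0 * (r ⬝ᵥ D.A.adjugate *ᵥ r)) • D.om (a, c) ∈ D.LamD
    refine D.mem_LamD.2 ⟨(r ⬝ᵥ b) • r, -(c1 * (r ⬝ᵥ D.A.adjugate *ᵥ r)),
      -(c0 • (r ⨯₃ (D.A *ᵥ (r ⨯₃ a)))), 0, ?_⟩
    have h8 : D.om (a, c) = (D.sg⁻¹ • (algebraMap B κ c • (1 : Matrix (Fin 2) (Fin 2) κ)) -
        D.sg⁻¹ • D.bv a) *ᵥ Dat.u := by
      rw [om_apply, ← Matrix.smul_mulVec, smul_sub]
    rw [smul_eq_map, h8, ← Matrix.smul_mulVec, map_mul, mul_comm, mul_smul, smul_sub, e2,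
      smul_smul, smul_smul, mul_assoc, e1]
    congr 1
    have h9 : algebraMap B κ (r ⬝ᵥ D.A.adjugate *ᵥ r) • (D.sg⁻¹ • D.rho b) =
        algebraMap B κ (r ⬝ᵥ b) • D.bv r -
          algebraMap B κ c0 • D.rho (r ⨯₃ (D.A *ᵥ (r ⨯₃ a))) := by
      rw [smul_comm, ← rho_smul, hy, sub_eq_add_neg, rho_add, rho_smul, rho_neg, rho_smul, ← sg_bv,
        ← h.hs, smul_add, smul_neg, smul_smul, smul_smul, smul_smul,
        show D.sg⁻¹ * (algebraMap B κ (r ⬝ᵥ b)) * D.sg = algebraMap B κ (r ⬝ᵥ b) by field_simp,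
        show D.sg⁻¹ * (algebraMap B κ c0 * D.sg) = algebraMap B κ c0 by field_simp,
        ← sub_eq_add_neg]
    unfold el
    rw [sub_neg_eq_add, smul_add, h9, bv_smul, rho_neg, rho_smul, map_neg, map_mul, map_zero,
      zero_mul, zero_smul, add_zero, smul_smul, mul_neg, mul_comm (algebraMap B κ c1)]
    abel
  -- coprimality
  have hcop : IsCoprime (c0 * (r ⬝ᵥ D.A.adjugate *ᵥ r)) D.A.det := by
    apply IsCoprime.mul_left h.h3
    obtain ⟨t, ht⟩ := hwr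
    exact ⟨w, -t, by linear_combination ht⟩
  obtain ⟨p, q, hpq⟩ := hcop
  have h10 : D.om (a, c) = p • ((c0 * (r ⬝ᵥ D.A.adjugate *ᵥ r)) • D.om (a, c)) +
      q • (D.A.det • D.om (a, c)) := by
    rw [smul_smul, smul_smul, ← add_smul, hpq, one_smul]
  rw [h10]
  exact add_mem (Submodule.smul_mem _ _ key) (Submodule.smul_mem _ _ (det_smul_om_mem a c))

theorem Gd.LamX_le [IsDomain B] {G s c0 : B} (h : D.Gd G s c0) : D.LamX G ≤ D.LamD := by
  rintro v ⟨⟨a, c⟩, hx, rfl⟩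
  exact h.om_mem hx

end BDat

end Vale.Agent.P287.H124
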